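import Vale.Agent.P153DC.Cpt
import Vale.Agent.P153D.Props

/-!
# Equicontinuous sets of distributions are relatively compact
-/

open Set Filter TopologicalSpace Topology
open scoped Distributions CompactConvergenceCLM

namespace P153DC

open Vale.Agent.P153D

/-- Equicontinuous sets of distributions are relatively compact. -/
theorem ala : ALA := by
  intro Ω S hS
  let ι := {K : Compacts ℂ // (K : Set ℂ) ⊆ Ω}
  have h1 : ∀ i : ι, ∃ (m : ℕ) (C : ℝ), ∀ T ∈ S, ∀ φ : Te Ω, tsupport φ ⊆ (i.1 : Set ℂ) →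
      ∀ B, Bd m φ B → |T φ| ≤ C * B := fun i => hS i.1 i.1.isCompact i.2
  choose m C hC using h1
  let p : ∀ i : ι, 𝓓^{⊤}_{i.1}(ℂ, ℝ) → ℝ := fun i φ =>
    C i * ContDiffMapSupportedIn.supSeminorm ℝ ℂ ℝ ⊤ i.1 (m i) φ
  have hp : ∀ i, ContinuousAt (p i) 0 := fun i =>
    (continuous_const.mul ((ContDiffMapSupportedIn.withSeminorms' ℝ ℂ ℝ ⊤ i.1).continuous_seminorm
      (m i))).continuousAt
  refine ⟨_, cpt (Ω := Ω) (n := ⊤) (fun i : ι => i.1) (fun i => i.2)
    (fun L hL => ⟨⟨L, hL⟩, le_rfl⟩) p hp (fun i => by simp [p]), ?_⟩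
  intro T hT i φ
  refine hC i T hT _ φ.tsupport_subset _ fun j hj x => ?_
  refine (ContDiffMapSupportedIn.norm_iteratedFDeriv_apply_le_seminorm_top ℝ (i := j) (f := φ)
    (x := x)).trans ?_
  exact Seminorm.le_finset_sup_apply (p := fun j => ContDiffMapSupportedIn.seminorm ℝ ℂ ℝ ⊤ i.1 j)
    (Finset.mem_Iic.2 hj)

end P153DC
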