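import Mathlib

/-!
# Compact sets of distributions

Equicontinuous bounded families of continuous linear forms are compact for the topology of
uniform convergence on compact sets (Arzela-Ascoli), and sets of distributions bounded on each
space of test functions supported in a fixed compact set are equicontinuous.
-/

open Set Filter TopologicalSpace Topology
open scoped Distributions CompactConvergenceCLM

namespace P153DC

/-- Linear forms dominated by a function which is continuous at zero form a compact set. -/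
theorem cpt_dom {V : Type*} [AddCommGroup V] [Module ℝ V] [TopologicalSpace V]
    [IsTopologicalAddGroup V] (q : V → ℝ) (hq : ContinuousAt q 0) (h0 : q 0 = 0) :
    IsCompact {T : V →L_c[ℝ] ℝ | ∀ φ, |T φ| ≤ q φ} := by
  set S : Set (V →L_c[ℝ] ℝ) := {T | ∀ φ, |T φ| ≤ q φ} with hS
  let F : S → V → ℝ := fun T => (T.1 : V → ℝ)
  have hq' : ∀ x₀ : V, Tendsto (fun x => q (x - x₀)) (𝓝 x₀) (𝓝 0) := by
    intro x₀
    have h1 : Tendsto (fun x => x - x₀) (𝓝 x₀) (𝓝 0) := by
      have : Continuous (fun x : V => x - x₀) := by fun_prop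
      simpa using this.tendsto x₀
    have h2 : Tendsto q (𝓝 0) (𝓝 0) := by
      have := hq.tendsto
      rwa [h0] at this
    exact h2.comp h1
  have heq : Equicontinuous F := by
    intro x₀
    rw [Metric.equicontinuousAt_iff_right]
    intro ε hε
    filter_upwards [(hq' x₀).eventually (gt_mem_nhds hε)] with x hx T
    have h3 := T.2 (x - x₀)
    rw [map_sub] at h3
    rw [dist_comm, Real.dist_eq]
    exact lt_of_le_of_lt h3 hx
  have hcov : ⋃₀ {K : Set V | IsCompact K} = univ := sUnion_isCompact_eq_univ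
  have hcl : IsClosed (range F) := by
    have hr : range F = {f : V → ℝ | (∀ x y, f (x + y) = f x + f y) ∧
        (∀ (c : ℝ) x, f (c • x) = c * f x) ∧ ∀ φ, |f φ| ≤ q φ} := by
      ext f
      constructor
      · rintro ⟨T, rfl⟩
        exact ⟨fun x y => map_add T.1 x y, fun c x => map_smul T.1 c x, T.2⟩
      · rintro ⟨h1, h2, h3⟩
        let L : V →ₗ[ℝ] ℝ := ⟨⟨f, h1⟩, fun c x => by simpa using h2 c x⟩
        have hc : Continuous L := by
          refine continuous_of_continuousAt_zero L ?_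
          have h2 : Tendsto q (𝓝 0) (𝓝 0) := by
            have := hq.tendsto
            rwa [h0] at this
          rw [ContinuousAt, map_zero]
          exact squeeze_zero_norm (fun x => h3 x) h2
        let T : V →L[ℝ] ℝ := ⟨L, hc⟩
        exact ⟨⟨T, h3⟩, rfl⟩
    rw [hr]
    simp only [ofPred_and, ofPred_forall]
    refine IsClosed.inter ?_ (IsClosed.inter ?_ ?_)
    · exact isClosed_iInter fun x => isClosed_iInter fun y =>
        isClosed_eq (by fun_prop) (by fun_prop)
    · exact isClosed_iInter fun c => isClosed_iInter fun y =>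
        isClosed_eq (by fun_prop) (by fun_prop)
    · exact isClosed_iInter fun φ => isClosed_le (by fun_prop) continuous_const
  rw [isCompact_iff_compactSpace]
  refine ArzelaAscoli.compactSpace_of_closed_inducing' (F := F)
    (𝔖 := {K : Set V | IsCompact K}) (fun K hK => hK) ?_ ?_ (fun K _ => heq.equicontinuousOn K) ?_
  · exact (UniformConvergenceCLM.isEmbedding_coeFn (RingHom.id ℝ) ℝ
      {K : Set V | IsCompact K}).isInducing.comp IsInducing.subtypeVal
  · exact (EquicontinuousOn.isClosed_range_uniformOnFun_iff_pi (fun K hK => hK) hcov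
      (fun K _ => heq.equicontinuousOn K)).2 hcl
  · intro K _ x _
    exact ⟨Icc (-q x) (q x), isCompact_Icc, fun T => abs_le.1 (T.2 x)⟩

variable {E : Type*} [NormedAddCommGroup E] [NormedSpace ℝ E] {Ω : Opens E} {n : ℕ∞}

/-- A family of distributions which is uniformly dominated on each space of test functions with
support in a compact set of a cofinal family is dominated by one continuous function. -/
theorem dom_of {ι : Type*} (K : ι → Compacts E) (hK : ∀ i, (K i : Set E) ⊆ Ω)
    (hcov : ∀ L : Compacts E, (L : Set E) ⊆ Ω → ∃ i, L ≤ K i)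
    (p : ∀ i, 𝓓^{n}_{K i}(E, ℝ) → ℝ) (hp : ∀ i, ContinuousAt (p i) 0) (h0 : ∀ i, p i 0 = 0)
    (S : Set 𝓓'^{n}(Ω, ℝ))
    (hS : ∀ T ∈ S, ∀ i φ, |T (TestFunction.ofSupportedIn (hK i) φ)| ≤ p i φ) :
    ∃ q : 𝓓^{n}(Ω, ℝ) → ℝ, Continuous q ∧ q 0 = 0 ∧ ∀ T ∈ S, ∀ φ, |T φ| ≤ q φ := by
  have hb : ∀ φ : 𝓓^{n}(Ω, ℝ), ∃ C, ∀ T ∈ S, |T φ| ≤ C := by
    intro φ
    obtain ⟨i, hi⟩ := hcov ⟨tsupport φ, φ.hasCompactSupport⟩ φ.tsupport_subset
    let ψ : 𝓓^{n}_{K i}(E, ℝ) :=
      .of_support_subset φ.contDiff ((subset_tsupport _).trans hi)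
    exact ⟨p i ψ, fun T hT => hS T hT i ψ⟩
  let Φ : 𝓓^{n}(Ω, ℝ) →ₗ[ℝ] lp (fun _ : S => ℝ) ⊤ :=
    { toFun := fun φ => ⟨fun T => T.1 φ, memℓp_infty (by
        obtain ⟨C, hC⟩ := hb φ
        refine ⟨C, ?_⟩
        rintro _ ⟨T, rfl⟩
        exact hC T.1 T.2)⟩
      map_add' := fun φ ψ => by
        ext T
        exact map_add T.1 φ ψ
      map_smul' := fun c φ => by
        ext T
        simp }
  have hΦ : ∀ φ (T : S), (Φ φ : S → ℝ) T = T.1 φ := fun _ _ => rfl
  have hc : Continuous Φ := by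
    rw [TestFunction.continuous_iff_continuous_comp]
    intro L hL
    obtain ⟨i, hi⟩ := hcov L hL
    have h1 : Continuous (Φ ∘ TestFunction.ofSupportedIn (hK i)) := by
      let Ψ : 𝓓^{n}_{K i}(E, ℝ) →ₗ[ℝ] lp (fun _ : S => ℝ) ⊤ :=
        Φ ∘ₗ (TestFunction.ofSupportedInCLM ℝ (hK i)).toLinearMap
      refine continuous_of_continuousAt_zero Ψ ?_
      have h2 : Tendsto (fun x => |p i x|) (𝓝 0) (𝓝 0) := by
        have := (hp i).tendsto.abs
        rwa [h0, abs_zero] at this
      rw [ContinuousAt, map_zero]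
      refine squeeze_zero_norm (fun x => ?_) h2
      refine lp.norm_le_of_forall_le (abs_nonneg _) fun T => ?_
      exact (hS T.1 T.2 i x).trans (le_abs_self _)
    have h2 : Φ ∘ TestFunction.ofSupportedIn hL = (Φ ∘ TestFunction.ofSupportedIn (hK i)) ∘
        (ContDiffMapSupportedIn.monoCLM ℝ : 𝓓^{n}_{L}(E, ℝ) →L[ℝ] 𝓓^{n}_{K i}(E, ℝ)) := by
      funext φ
      simp only [Function.comp_apply]
      congr 1
      ext x
      simp [TestFunction.ofSupportedIn, hi]
    rw [h2]
    exact h1.comp (ContinuousLinearMap.continuous _)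
  refine ⟨fun φ => ‖Φ φ‖, hc.norm, by simp, fun T hT φ => ?_⟩
  exact lp.norm_apply_le_norm (by simp) (Φ φ) ⟨T, hT⟩

/-- The set of distributions bounded by `p i` on the test functions supported in `K i`, for a
cofinal family of compact sets `K i`, is compact. -/
theorem cpt {ι : Type*} (K : ι → Compacts E) (hK : ∀ i, (K i : Set E) ⊆ Ω)
    (hcov : ∀ L : Compacts E, (L : Set E) ⊆ Ω → ∃ i, L ≤ K i)
    (p : ∀ i, 𝓓^{n}_{K i}(E, ℝ) → ℝ) (hp : ∀ i, ContinuousAt (p i) 0) (h0 : ∀ i, p i 0 = 0) :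
    IsCompact {T : 𝓓'^{n}(Ω, ℝ) |
      ∀ i φ, |T (TestFunction.ofSupportedIn (hK i) φ)| ≤ p i φ} := by
  obtain ⟨q, hq, hq0, hS⟩ := dom_of K hK hcov p hp h0
    {T | ∀ i φ, |T (TestFunction.ofSupportedIn (hK i) φ)| ≤ p i φ} (fun T hT => hT)
  refine (cpt_dom q hq.continuousAt hq0).of_isClosed_subset ?_ (fun T hT => hS T hT)
  simp only [ofPred_forall]
  exact isClosed_iInter fun i => isClosed_iInter fun φ =>
    isClosed_le (continuous_eval_const _).abs continuous_const

end P153DC
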